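/-!
# Plan for S0500 (statements in `H4/SF/Defs.lean`; files `H4/SF/<Task>.lean`, namespace `Crest.Agent.H4.SD`)
Target of task `x`: `theorem t_x : T_x`.  Closure library (`SF.and`, `SF.ex`, `SFn.add`, tactic `sf`): `H4/SF/Basic.lean`.
Tasks tq, half, cos, dbl, par, grp, seq, pell, crt need only `Defs`.  Put private helpers in a sub-namespace.

## tq.  x₁ ≠ x₂: P+Q, P-Q are affine with abscissae u, u' and Tq x₁ x₂ X = (x₁-x₂)²(X-u)(X-u'); equal abscissa ⇔ equal up to sign (`Point.xRep_eq_xRep_iff`).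
x₁ = x₂: Q = ±P; y₁ ≠ 0: Tq x₁ x₁ X = (x₁²+2)² - 4y₁²X, x(2P) = (x₁²+2)²/(4y₁²); y₁ = 0: x₁ = 0 (2 is no square), Tq = 4, both sides false.
## half.  (⇒) R = (x,y): y = 0 gives 0, else x(2R) = ((x²+2)/(2y))², A = |num|, D = den.  (⇐) x = t², t ≠ 0, y = t s, s² = t⁴-2; X = 2(t²+s) > 0 satisfies
X²+8 = 4t²X, and so does 8/X.  X = n/e: n e (n²+8e²) is a square, gcd(n e, n²+8e²) ∣ 8, so X = w² or 2w² (then 8/X = (2/w)²).  With w⁴+8 = 4t²w²: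
r = w(w+2t)/2 ≠ 0, r²-2 = w²r, R = (r, w r) is on the curve, r²+2 = 2twr, so x(2R) = t², 2R = ±P.
## cos.  g = 2P₁, P₁ = (-1,1), T = (0,0), T+T = 0.  R = (x,y), x ≠ 0: x = ±w² or ±2w² (x = n/e, gcd(n e, n²-2e²) ∣ 2).  x = w²: half.  x(R+T) = -2/x turns ∓2w² into ±1/w².
x = -w²: R = ±P₁ by hand (R' = 0, -P₁); else x(R-P₁)·x·(-1) = ν² (ν the intercept of the chord), so R-P₁ has square abscissa or is T.
## dbl.  y = t s/D², s² = A⁴-2D⁴ (s an integer), A is odd, x(2P) = ((A⁴+2D⁴)/(2AD|s|))² in lowest terms.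
## par.  x₁ ≠ x₂ (else P±Q = 0 has no code).  U = A₁²D₂²-A₂²D₁², N = A₁²A₂²+2D₁²D₂², V = 2(A₁²D₂²+A₂²D₁²)(A₁²A₂²-2D₁²D₂²): x₃x₄ = N²/U², x₃+x₄ = V/U².
A₃²A₄² divides N²D₃²D₄² and N²(A₃²D₄²+A₄²D₃²), and gcd(D₃²D₄², A₃²D₄²+A₄²D₃², A₃²A₄²) = 1, so A₃A₄ ∣ N ≤ 3A₁²A₂² (D ≤ A from the curve equation).
## grp.  H P = lim log a(2^k P)/4^k: log a ≤ H ≤ log a + log 2, H(2P) = 4H P, H(P+Q)+H(P-Q) ≤ 2H P+2H Q, hence equality (apply it to P+Q, P-Q; H 0 = 0), H(kP) = k²H P.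
Torsion-free since H P ≥ log 3; f.g. by `AddCommGroup.fg_of_descent'` (or `AddGroup.fg_of_descent`); free over ℤ; two basis vectors b₀, b₁ would both be ≡ g₁ mod 2G.  l = exp (H g).
## seq.  G = range of doubling; codes are unique and shared by ±P; a 0 = 1; par covers Q = ±P, 0 by dbl; a k = a (k•g).  Sol A D ↔ ∃ P, Cd P A D (y = (A/D) s/D²).
## add.  AddR ↔ Sol ∧ Sol ∧ Sol ∧ (Tq cleared of denominators, as an equation in ℕ) ∧ A₁A₂ < A₃.  Coprime A D ↔ ∃! u < D, A u % D = 1 % D.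
## sq.  ∃ A₂ D₂ A₃ D₃, AddR A D A D A₂ D₂ ∧ AddR G E (a 2) (d 2) A₃ D₃ ∧ G A₂ (a 2) ≤ 2A₃ ∧ A₃ ≤ 8 G A₂ (a 2); exponent (M+2)²-M²-4m²-4 = 4(M-m²), l⁴ ≥ 81.  a is injective on k ≥ 1.
## pell.  A^(N-1) ≤ yn N ≤ (2A)^(N-1) for N ≥ 1 (`Pell.yn_succ`, `xn_ge_a_pow`, `yn_succ_succ`).
## idx.  2 ≤ j ∧ ∃ D E x y, SqR A D G E ∧ A ≠ a 1 ∧ x x + y y = 1 + A A y y ∧ y ≤ 2G ∧ G ≤ 4A²y ∧ y % (A-1) = j² ∧ j² < A-1 (`Pell.eq_pell`, `yn_modEq_a_sub_one`).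
## pow.  b = 0 by cases.  b ≥ 1: j = b+n+2, ∃ A G x y, IdxR j A G ∧ Pell ∧ y ≤ 2G ∧ y % (A-1) = n ∧ z < M ∧ y(A-b)+z ≡ x [MOD M], M = 2Ab-b²-1 (`Pell.x_sub_y_dvd_pow`).
## ch.  choose n k = (u+1)^n / u^k % u, u = 2^n+1;  n! = r^n / choose r n, r = (n^n+1)n²+n+1;  descFactorial n k = k! * choose n k.
## crt.  m i = (q+1)/(i+1) - 1, M = ∏_{i<n} m i, q ≡ i mod m i, prime factors of m i exceed r = B+u+n+3, the m i are pairwise coprime and > u.  p ∣ descFactorial z u gives w < u with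
z ≡ w mod p; |P i w| ≤ B < p gives P i w = 0.  Uniqueness: m i divides ∏_{j<u} (z-j) and is coprime to the factors with j ≠ w.
## ball.  ∃ u z, Φ u z ∧ (u = 0 ∨ 0 < u ∧ ∑_k descFactorial (z k) (u-1) % M ≠ 0); B from `SF.bound`, P = g₁ - g₂ from `SF.split`, congruence by induction on `IsPoly`.
## prec.  digits s / B^i % B of ∃ B s i₀, s < B^(n+1), digit 0 ∈ f a, ∀ i < n step, digit n = y, i₀ ≤ n, digit i₀ + 1 = B, ∀ i < i₀, digit i + 1 ≠ B.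
## rec.  induction on `Nat.Partrec`; rfind: 0 ∈ f (a,y) ∧ ∀ m < y, ∃ v, v+1 ∈ f (a,m).
## fin.  a ∈ S ↔ 0 ∈ F (encode a), encode a = encode (List.ofFn a) is built from `Nat.pair`; `IsPoly` gives an `MvPolynomial`; add a dummy unknown (p² + w²).
-/
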